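import Vale.Agent.Snaky.All

set_option autoImplicit false

namespace Vale.Agent.Results.P062.MostReplies

open Vale.Agent.Snaky

/-- After Maker's first stone at the origin, Maker wins against every Breaker reply `b`, except
possibly the eight cells adjacent to the origin, that is, with `(|b.1|, |b.2|)` in `{(1,0), (0,1), (1,1)}`. -/
theorem result (b : Cell) (hb : b ≠ ((0 : ℤ), (0 : ℤ)))
    (h : (b.1.natAbs, b.2.natAbs) ∉ ({(1, 0), (0, 1), (1, 1)} : Finset (ℕ × ℕ))) :
    MakerWins {((0 : ℤ), (0 : ℤ))} {b} := by
  refine final_sound invAll finalAll b hb ?_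
  rintro i hi rfl
  apply h
  revert i
  decide +kernel

end Vale.Agent.Results.P062.MostReplies
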